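import Crest.Agent.N49.Ir.Ty

/-!
# Row 49 (helper89): narrowing and embeddings of typed towers decrease the irregularity
-/

set_option autoImplicit false
set_option linter.unusedSectionVars false

open Matrix

noncomputable section

namespace Crest.Agent.N49.Ir

open Po

variable {L L' V V' : Type} [DecidableEq L] [Fintype V] [DecidableEq V] [DecidableEq L']
  [Fintype V'] [DecidableEq V'] {ty : V → Finset L} {Φ : (V → ℝ) → V → ℝ}
  {ty' : V' → Finset L'} {Φ' : (V' → ℝ) → V' → ℝ}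

/-! ### narrowing -/

variable (ty) in
/-- narrow the letter `i` by the factor `lam i` -/
def nar (lam : L → ℝ) (Φ : (V → ℝ) → V → ℝ) (y : V → ℝ) (v : V) : ℝ := (∏ i ∈ ty v, lam i) * Φ y v

theorem nar_nar (a b : L → ℝ) : nar ty a (nar ty b Φ) = nar ty (fun i => a i * b i) Φ := by
  funext y v
  simp [nar, Finset.prod_mul_distrib, mul_assoc]

theorem nar_congr {a b : L → ℝ} (h : ∀ v, ∀ i ∈ ty v, a i = b i) : nar ty a Φ = nar ty b Φ := by
  funext y v
  rw [nar, nar, Finset.prod_congr rfl (h v)]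

theorem nar_one : nar ty (fun _ => 1) Φ = Φ := by
  funext y v
  simp [nar]

theorem Ty.nar (h : Ty ty Φ) (lam : L → ℝ) : Ty ty (nar ty lam Φ) :=
  ⟨h.ne, fun v y y' a => congrArg _ (h.dep v y y' a), fun v i hi y =>
    ⟨fun u u' => by simp only [Ir.nar]; rw [(h.lin v i hi y).map_add, mul_add],
      fun t u => by simp only [Ir.nar]; rw [(h.lin v i hi y).map_smul, mul_smul_comm]⟩⟩

theorem det_nar (lam : L → ℝ) :
    (lp (nar ty lam Φ)).det = (∏ v, ∏ i ∈ ty v, lam i) * (lp Φ).det := by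
  rw [← det_diagonal, ← det_mul]
  congr 1
  ext v c
  simp [lp, nar]

theorem det_nar_ne (hd : (lp Φ).det ≠ 0) {lam : L → ℝ} (hl : ∀ i, lam i ≠ 0) :
    (lp (nar ty lam Φ)).det ≠ 0 := by
  rw [det_nar]
  exact mul_ne_zero (Finset.prod_ne_zero_iff.2 fun _ _ => Finset.prod_ne_zero_iff.2 fun i _ => hl i)
    hd

theorem del_nar (i : L) (t : ℝ) :
    del ty (nar ty (fun j => if j = i then t else 1) Φ) i = del ty Φ i := by
  funext r v
  simp [del, nar, v.2]

theorem fm_nar {i : L} (t : ℝ) (r : Out ty i → ℝ) :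
    fm (nar ty (fun j => if j = i then t else 1) Φ) r = t • fm Φ r := by
  ext v c
  simp [fm, nar, v.2]

theorem qf_smul_tr {W : Type} [Fintype W] [DecidableEq W] (t : ℝ) (N : Matrix W V ℝ) (x : V → ℝ) :
    qf ((t • N)ᵀ * (t • N)) x = t ^ 2 * qf (Nᵀ * N) x := by
  rw [qf_tr, qf_tr, smul_mulVec]
  simp [qf_one, mul_pow, Finset.mul_sum]

theorem Ty.le_nar1 (h : Ty ty Φ) (hd : (lp Φ).det ≠ 0) (i : L) {t : ℝ} (ht : 1 ≤ t) :
    irr Φ ≤ irr (Ir.nar ty (fun j => if j = i then t else 1) Φ) := by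
  have hd' := det_nar_ne (ty := ty) hd (lam := fun j => if j = i then t else 1) fun j => by
    split_ifs <;> positivity
  have a := (h.nar _).fb hd' i
  rw [h.irr_eq hd i, (h.nar _).irr_eq hd' i]
  rw [del_nar] at a ⊢
  refine mul_le_mul_of_nonneg_left (a.mono (h.fb hd i).pd (h.fb hd i).dt fun x y => ?_).2
    (abs_nonneg _)
  rw [fm_nar, qf_smul_tr]
  exact le_mul_of_one_le_left (qf_nonneg ((h.fb hd i).pd x) y) (one_le_pow₀ ht)

theorem Ty.le_nar (h : Ty ty Φ) (hd : (lp Φ).det ≠ 0) {lam : L → ℝ} (hl : ∀ i, 1 ≤ lam i) :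
    irr Φ ≤ irr (Ir.nar ty lam Φ) := by
  have k : ∀ J : Finset L, irr Φ ≤ irr (Ir.nar ty (fun j => if j ∈ J then lam j else 1) Φ) := by
    intro J
    induction J using Finset.induction_on with
    | empty => simp [nar_one]
    | insert i J hi ih =>
      refine ih.trans (((h.nar _).le_nar1 (det_nar_ne hd fun j => ?_) i (hl i)).trans_eq ?_)
      · have := hl j
        split_ifs <;> positivity
      · rw [nar_nar]
        congr 2
        funext j
        by_cases e : j = i <;> simp [e, hi]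
  refine (k (Finset.univ.biUnion ty)).trans_eq (congrArg irr (nar_congr fun v i hi => if_pos ?_))
  exact Finset.mem_biUnion.2 ⟨v, Finset.mem_univ _, hi⟩

/-- **the irregularity is monotone in the narrowing** -/
theorem Ty.nar_mono (h : Ty ty Φ) (hd : (lp Φ).det ≠ 0) {a b : L → ℝ} (ha : ∀ i, 0 < a i)
    (hab : ∀ i, a i ≤ b i) : irr (Ir.nar ty a Φ) ≤ irr (Ir.nar ty b Φ) := by
  refine ((h.nar a).le_nar (det_nar_ne hd fun i => (ha i).ne') (lam := fun i => b i / a i)
    fun i => (one_le_div (ha i)).2 (hab i)).trans_eq ?_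
  rw [nar_nar]
  exact congrArg irr (nar_congr fun _ i _ => div_mul_cancel₀ _ (ha i).ne')

/-! ### isomorphisms and embeddings -/

theorem wt_iso (e : V ≃ V') (h : ∀ y v, Φ' y (e v) = Φ (y ∘ e) v) (y : V' → ℤ) :
    wt Φ' y = wt Φ (y ∘ e) := by
  rw [wt, wt, gs, gs, qf_one, qf_one, ← e.sum_comp]
  simp only [h]
  rfl

theorem tsum_iso (e : V ≃ V') (h : ∀ y v, Φ' y (e v) = Φ (y ∘ e) v) {E : Type*} [AddCommMonoid E]
    [TopologicalSpace E] (F : ℝ → (V → ℤ) → E) :
    ∑' y, F (wt Φ' y) (y ∘ e) = ∑' y, F (wt Φ y) y := by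
  rw [← (e.arrowCongr (Equiv.refl ℤ)).symm.tsum_eq]
  exact tsum_congr fun y => by rw [wt_iso e h]; rfl

theorem lp_sub {e : V → V'} (he : Function.Injective e) (h : ∀ y v, Φ' y (e v) = Φ (y ∘ e) v) :
    lp Φ = (lp Φ').submatrix e e := by
  ext v c
  simp only [lp, of_apply, submatrix_apply, h]
  congr 1
  funext c'
  simp [Pi.single_apply, he.eq_iff]

theorem irr_iso (e : V ≃ V') (h : ∀ y v, Φ' y (e v) = Φ (y ∘ e) v) : irr Φ = irr Φ' := by
  rw [irr, irr, lp_sub e.injective h, det_submatrix_equiv_self, ZZ, ZZ,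
    ← tsum_iso e h fun a _ => a]

variable (ty Φ ty' Φ') in
/-- the first tower is the sub-tower of the second on the letters `range φ` -/
structure Emb (φ : L → L') (e : V → V') : Prop where
  φi : Function.Injective φ
  ei : Function.Injective e
  ty : ∀ v, ty' (e v) = (ty v).image φ
  sur : ∀ v', (∀ i ∈ ty' v', i ∈ Set.range φ) → v' ∈ Set.range e
  ph : ∀ y v, Φ' y (e v) = Φ (y ∘ e) v

namespace Emb

variable {φ : L → L'} {e : V → V'}

theorem mem (E : Emb ty Φ ty' Φ' φ e) {i : L} {v : V} : φ i ∈ ty' (e v) ↔ i ∈ ty v := by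
  rw [E.ty]
  exact E.φi.mem_finset_image

theorem ext (E : Emb ty Φ ty' Φ' φ e) (x : V → ℝ) (v : V) :
    Φ x v = Φ' (Function.extend e x 0) (e v) := by
  rw [E.ph, Function.extend_comp E.ei]

theorem tyd (E : Emb ty Φ ty' Φ' φ e) (h : Ty ty' Φ') : Ty ty Φ := by
  refine ⟨fun v => ?_, fun v y y' a => ?_, fun v i hi y => ?_⟩
  · have := h.ne (e v)
    rwa [E.ty, Finset.image_nonempty] at this
  · rw [E.ext, E.ext]
    refine h.dep _ _ _ fun c b => ?_
    by_cases k : ∃ c', e c' = c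
    · obtain ⟨c', rfl⟩ := k
      rw [E.ei.extend_apply, E.ei.extend_apply]
      exact a c' fun i m => E.mem.1 (b (E.mem.2 m))
    · rw [Function.extend_apply' _ _ _ k, Function.extend_apply' _ _ _ k]
  have a := h.lin (e v) (φ i) (E.mem.2 hi) (Function.extend e y 0)
  have k : ∀ u : V → ℝ, Φ (fun c => if i ∈ ty c then u c else y c) v =
      Φ' (fun c => if φ i ∈ ty' c then Function.extend e u 0 c else Function.extend e y 0 c)
        (e v) := fun u => by
    rw [E.ph]
    congr 1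
    funext c
    simp [E.mem, E.ei.extend_apply]
  simp only [k]
  refine ⟨fun u u' => ?_, fun t u => ?_⟩
  · rw [← a.map_add, E.ph, E.ph]
    congr 1
    funext c
    simp [E.ei.extend_apply]
  · rw [← a.map_smul, E.ph, E.ph]
    congr 1
    funext c
    simp [E.ei.extend_apply]

theorem aux : ∀ (n : ℕ) {V' : Type} [Fintype V'] [DecidableEq V'] {ty' : V' → Finset L'}
    {Φ' : (V' → ℝ) → V' → ℝ} {e : V → V'}, Fintype.card V' < n → Ty ty' Φ' → (lp Φ').det ≠ 0 →
    Emb ty Φ ty' Φ' φ e → (lp Φ).det ≠ 0 ∧ irr Φ ≤ irr Φ' := by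
  intro n
  induction n with
  | zero => exact fun a => absurd a (Nat.not_lt_zero _)
  | succ n ih =>
    intro V' _ _ ty' Φ' e a h hd E
    by_cases s : Function.Surjective e
    · let e' := Equiv.ofBijective e ⟨E.ei, s⟩
      refine ⟨?_, (irr_iso e' E.ph).le⟩
      rwa [lp_sub (e := e') E.ei E.ph, det_submatrix_equiv_self]
    obtain ⟨v', hv⟩ := not_forall.1 s
    obtain ⟨i, hi⟩ := not_forall.1 fun k => hv (E.sur v' k)
    obtain ⟨hi, hn⟩ := Classical.not_imp.1 hi
    have o : ∀ v, i ∉ ty' (e v) := fun v m => by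
      rw [E.ty] at m
      obtain ⟨j, -, rfl⟩ := Finset.mem_image.1 m
      exact hn ⟨j, rfl⟩
    have b := ih (e := fun v => (⟨e v, o v⟩ : Out ty' i))
      ((Fintype.card_subtype_lt (x := v') (not_not.2 hi)).trans_le (Nat.le_of_lt_succ a))
      (h.tdel i) (h.det_del hd i) ⟨E.φi, fun _ _ k => E.ei (congrArg Subtype.val k), E.ty,
        fun c k => (E.sur c k).imp fun _ m => Subtype.ext m, fun y v => by
          rw [del, E.ph]
          exact congrFun (congrArg Φ (funext fun c => jn_out y 0 ⟨e c, o c⟩)) v⟩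
    exact ⟨b.1, b.2.trans (h.irr_del_le hd i)⟩

theorem det (E : Emb ty Φ ty' Φ' φ e) (h : Ty ty' Φ') (hd : (lp Φ').det ≠ 0) : (lp Φ).det ≠ 0 :=
  (aux _ (Nat.lt_succ_self _) h hd E).1

/-- **sub-towers are more regular** -/
theorem le (E : Emb ty Φ ty' Φ' φ e) (h : Ty ty' Φ') (hd : (lp Φ').det ≠ 0) : irr Φ ≤ irr Φ' :=
  (aux _ (Nat.lt_succ_self _) h hd E).2

end Emb

end Crest.Agent.N49.Ir

end
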