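import Crest.Agent.N49.Po.Mas
import Crest.Agent.N49.Po.Lin

/-!
# Row 49 (helper89): the dual theta function of a fibre; fibred Gaussian weights
-/

set_option autoImplicit false
set_option linter.unusedSectionVars false

open Matrix

noncomputable section

namespace Crest.Agent.N49.Ir

open Po

variable {d e : Type} [Fintype d] [DecidableEq d] [Fintype e] [DecidableEq e]
  {M M' : Matrix d d ℝ}

/-- the dual theta value -/
def thd (M : Matrix d d ℝ) : ℝ := th M⁻¹ 0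

theorem one_le_thd (hM : M.PosDef) : 1 ≤ thd M := one_le_th hM.inv

theorem th_eq_thd (hM : M.PosDef) : th M 0 = dt M * thd M := th_dual hM

theorem abs_th_sub (hM : M.PosDef) (θ : d → ℝ) : |th M θ - dt M| ≤ dt M * (thd M - 1) :=
  smooth hM θ

theorem th_le_thd (hM : M.PosDef) (θ : d → ℝ) : th M θ ≤ dt M * thd M :=
  (th_le hM θ).trans_eq (th_eq_thd hM)

theorem inv_anti (hM : M.PosDef) (hM' : M'.PosDef) (h : ∀ x, qf M x ≤ qf M' x) (k : d → ℝ) :
    qf M'⁻¹ k ≤ qf M⁻¹ k := by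
  have a := dual_sq_le hM (M'⁻¹ *ᵥ k) k
  have b : qf M' (M'⁻¹ *ᵥ k) = qf M'⁻¹ k := by
    rw [qf, mulVec_mulVec, mul_nonsing_inv _ hM'.det_pos.ne'.isUnit, one_mulVec, dotProduct_comm]
    rfl
  have c : k ⬝ᵥ M'⁻¹ *ᵥ k = qf M'⁻¹ k := rfl
  have p := qf_nonneg hM'.inv k
  have q := qf_nonneg hM.inv k
  have r := mul_le_mul_of_nonneg_left ((h _).trans_eq b) q
  rw [c] at a
  rcases p.eq_or_lt with z | z
  · rw [← z]; exact q
  · exact le_of_mul_le_mul_right (by nlinarith) z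

/-- the dual theta value is monotone in the precision -/
theorem thd_mono (hM : M.PosDef) (hM' : M'.PosDef) (h : ∀ x, qf M x ≤ qf M' x) : thd M ≤ thd M' :=
  th_mono hM'.inv hM.inv (inv_anti hM hM' h) 0

theorem thd_short (hM : M.PosDef) {k : d → ℤ} (hk : k ≠ 0) {R : ℝ} (h : qf M⁻¹ (zc k) ≤ R) :
    1 + 2 * Real.exp (-(Real.pi * R)) ≤ thd M := by
  have n : -k ≠ k := fun e => hk (funext fun i => by
    have := congrFun e i
    simp only [Pi.neg_apply] at this
    simp only [Pi.zero_apply]; omega)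
  have a := sum_le_th hM.inv 0 {0, k, -k}
  rw [Finset.sum_insert (by simp [hk.symm, hk]), Finset.sum_insert (by simpa using n.symm),
    Finset.sum_singleton, sub_zero, sub_zero, sub_zero, zc_zero, gs_zero, zc_neg, gs_neg] at a
  have b : Real.exp (-(Real.pi * R)) ≤ gs M⁻¹ (zc k) :=
    Real.exp_le_exp.2 (neg_le_neg (mul_le_mul_of_nonneg_left h Real.pi_pos.le))
  unfold thd; linarith

/-- fibred Gaussian weights with a constant determinant -/
structure Fb {X : Type*} (w : X → ℝ) (M : X → Matrix d d ℝ) (Δ : ℝ) : Prop where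
  nn : ∀ x, 0 ≤ w x
  pd : ∀ x, (M x).PosDef
  dt : ∀ x, dt (M x) = Δ
  sm : Summable fun x => w x * thd (M x)

namespace Fb

variable {X : Type*} {w : X → ℝ} {N N' : X → Matrix d d ℝ} {Δ Δ' : ℝ}

theorem sw (h : Fb w N Δ) : Summable w :=
  h.sm.of_nonneg_of_le h.nn fun x => le_mul_of_one_le_right (h.nn x) (one_le_thd (h.pd x))

theorem sm1 (h : Fb w N Δ) : Summable fun x => w x * (thd (N x) - 1) := by
  simpa only [mul_sub, mul_one] using h.sm.sub h.sw

theorem ex_eq (h : Fb w N Δ) :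
    ∑' x, w x * (thd (N x) - 1) = ∑' x, w x * thd (N x) - ∑' x, w x := by
  simpa only [mul_sub, mul_one] using h.sm.tsum_sub h.sw

theorem le (h : Fb w N Δ) : ∑' x, w x ≤ ∑' x, w x * thd (N x) :=
  h.sw.tsum_le_tsum (fun x => le_mul_of_one_le_right (h.nn x) (one_le_thd (h.pd x))) h.sm

theorem sth (h : Fb w N Δ) (θ : X → d → ℝ) : Summable fun x => w x * th (N x) (θ x) :=
  (h.sm.mul_left Δ).of_nonneg_of_le (fun x => mul_nonneg (h.nn x) (th_nonneg _ _)) fun x => by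
    rw [mul_left_comm, ← h.dt x]
    exact mul_le_mul_of_nonneg_left (th_le_thd (h.pd x) _) (h.nn x)

theorem summable (h : Fb w N Δ) (θ : X → d → ℝ) :
    Summable fun p : X × (d → ℤ) => w p.1 * gs (N p.1) (zc p.2 - θ p.1) := by
  refine (summable_prod_of_nonneg fun p => mul_nonneg (h.nn _) (gs_pos _ _).le).2
    ⟨fun x => (summable_gs (h.pd x) (θ x)).mul_left (w x), ?_⟩
  simp only [tsum_mul_left]
  exact h.sth θ

/-- a summable joint weight gives a fibred weight -/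
theorem of_summable (nn : ∀ x, 0 ≤ w x) (pd : ∀ x, (N x).PosDef) (hd : ∀ x, Po.dt (N x) = Δ)
    (hs : Summable fun p : X × (d → ℤ) => w p.1 * gs (N p.1) (zc p.2)) : Fb w N Δ := by
  refine ⟨nn, pd, hd, ?_⟩
  have a := hs.prod
  simp only [tsum_mul_left] at a
  rcases isEmpty_or_nonempty X with _ | ⟨⟨x0⟩⟩
  · exact .of_finite
  have D : Δ ≠ 0 := hd x0 ▸ (dt_pos (pd x0)).ne'
  refine (a.mul_left Δ⁻¹).congr fun x => ?_
  have : ∑' n : d → ℤ, gs (N x) (zc n) = Δ * thd (N x) := by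
    rw [← hd x, ← th_eq_thd (pd x), th]; simp only [sub_zero]
  rw [this]; field_simp

theorem tsum_real (h : Fb w N Δ) (θ : X → d → ℝ) {F : X × (d → ℤ) → ℝ} {B : ℝ}
    (hF : ∀ p, |F p| ≤ B) :
    ∑' p : X × (d → ℤ), w p.1 * gs (N p.1) (zc p.2 - θ p.1) * F p =
      ∑' x, w x * ∑' n : d → ℤ, gs (N x) (zc n - θ x) * F (x, n) := by
  have s : Summable fun p : X × (d → ℤ) => w p.1 * gs (N p.1) (zc p.2 - θ p.1) * F p :=
    .of_norm_bounded ((h.summable θ).mul_right B) fun p => by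
      rw [norm_mul, Real.norm_of_nonneg (mul_nonneg (h.nn _) (gs_pos _ _).le)]
      exact mul_le_mul_of_nonneg_left (hF p) (mul_nonneg (h.nn _) (gs_pos _ _).le)
  rw [s.tsum_prod]
  exact tsum_congr fun x => by rw [← tsum_mul_left]; exact tsum_congr fun n => mul_assoc _ _ _

theorem tsum_cpx (h : Fb w N Δ) (θ : X → d → ℝ) {F : X × (d → ℤ) → ℂ} {B : ℝ}
    (hF : ∀ p, ‖F p‖ ≤ B) :
    ∑' p : X × (d → ℤ), ((w p.1 * gs (N p.1) (zc p.2 - θ p.1) : ℝ) : ℂ) * F p =
      ∑' x, (w x : ℂ) * ∑' n : d → ℤ, (gs (N x) (zc n - θ x) : ℂ) * F (x, n) := by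
  rw [(summable_wt (fun p => mul_nonneg (h.nn _) (gs_pos _ _).le) (h.summable θ) hF).tsum_prod]
  refine tsum_congr fun x => ?_
  rw [← tsum_mul_left]
  exact tsum_congr fun n => by push_cast; ring

theorem tsum_th (h : Fb w N Δ) (θ : X → d → ℝ) :
    ∑' p : X × (d → ℤ), w p.1 * gs (N p.1) (zc p.2 - θ p.1) = ∑' x, w x * th (N x) (θ x) := by
  rw [(h.summable θ).tsum_prod]
  exact tsum_congr fun x => by simp only [th, tsum_mul_left]

/-- the partition function -/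
theorem tsum_zero (h : Fb w N Δ) :
    ∑' p : X × (d → ℤ), w p.1 * gs (N p.1) (zc p.2) = Δ * ∑' x, w x * thd (N x) := by
  have a := h.tsum_th fun _ => 0
  simp only [sub_zero] at a
  rw [a, ← tsum_mul_left]
  exact tsum_congr fun x => by rw [th_eq_thd (h.pd x), h.dt x]; ring

/-- **marginals**: summing a fibre with an arbitrary centre -/
theorem marg (h : Fb w N Δ) (θ : X → d → ℝ) {f : X → ℝ} (hf : ∀ x, |f x| ≤ 1) :
    |∑' p : X × (d → ℤ), w p.1 * gs (N p.1) (zc p.2 - θ p.1) * f p.1 - Δ * ∑' x, w x * f x| ≤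
      Δ * ∑' x, w x * (thd (N x) - 1) := by
  have b : ∀ {u : X → ℝ}, (∀ x, 0 ≤ u x) → Summable u → Summable fun x => u x * f x :=
    fun n s => .of_norm_bounded s fun x => by
      rw [norm_mul, Real.norm_of_nonneg (n x)]
      exact mul_le_of_le_one_right (n x) (hf x)
  rw [h.tsum_real θ (F := fun p => f p.1) fun p => hf p.1]
  simp only [tsum_mul_right]
  have s1 := b (fun x => mul_nonneg (h.nn x) (th_nonneg _ _)) (h.sth θ)
  simp only [mul_assoc] at s1
  rw [← tsum_mul_left, ← tsum_mul_left, ← Summable.tsum_sub (by exact s1)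
    ((b h.nn h.sw).mul_left Δ), ← Real.norm_eq_abs]
  refine tsum_of_norm_bounded (h.sm1.mul_left Δ).hasSum fun x => ?_
  have e : w x * ((∑' n : d → ℤ, gs (N x) (zc n - θ x)) * f x) - Δ * (w x * f x) =
      w x * (th (N x) (θ x) - Po.dt (N x)) * f x := by rw [h.dt x, th]; ring
  rw [e, norm_mul, norm_mul, Real.norm_of_nonneg (h.nn x), mul_left_comm, ← h.dt x]
  exact (mul_le_of_le_one_right (mul_nonneg (h.nn x) (norm_nonneg _)) (hf x)).trans
    (mul_le_mul_of_nonneg_left (abs_th_sub (h.pd x) _) (h.nn x))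

theorem margC (h : Fb w N Δ) (θ : X → d → ℝ) {f : X → ℂ} (hf : ∀ x, ‖f x‖ ≤ 1) :
    ‖∑' p : X × (d → ℤ), ((w p.1 * gs (N p.1) (zc p.2 - θ p.1) : ℝ) : ℂ) * f p.1 -
      Δ * ∑' x, (w x : ℂ) * f x‖ ≤ Δ * ∑' x, w x * (thd (N x) - 1) := by
  rw [h.tsum_cpx θ (F := fun p => f p.1) fun p => hf p.1]
  simp only [tsum_mul_right]
  have s1 := summable_wt (fun x => mul_nonneg (h.nn x) (th_nonneg _ _)) (h.sth θ) hf
  have t : ∀ x, ∑' n : d → ℤ, (gs (N x) (zc n - θ x) : ℂ) = (th (N x) (θ x) : ℝ) := fun x => by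
    rw [th, Complex.ofReal_tsum]
  simp only [t]
  simp only [Complex.ofReal_mul, mul_assoc] at s1
  rw [← tsum_mul_left, ← tsum_mul_left, ← Summable.tsum_sub s1
    ((summable_wt h.nn h.sw hf).mul_left (Δ : ℂ))]
  refine tsum_of_norm_bounded (h.sm1.mul_left Δ).hasSum fun x => ?_
  have e : (w x : ℂ) * ((th (N x) (θ x) : ℝ) * f x) - Δ * (w x * f x) =
      ((w x * (th (N x) (θ x) - Po.dt (N x)) : ℝ) : ℂ) * f x := by rw [h.dt x]; push_cast; ring
  rw [e, norm_mul, Complex.norm_real, norm_mul, Real.norm_of_nonneg (h.nn x), mul_left_comm,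
    ← h.dt x]
  exact (mul_le_of_le_one_right (mul_nonneg (h.nn x) (norm_nonneg _)) (hf x)).trans
    (mul_le_mul_of_nonneg_left (abs_th_sub (h.pd x) _) (h.nn x))

/-- **smooth off a small set** -/
theorem bad (h : Fb w N Δ) (R : ℝ) {g : X → ℝ} (g0 : ∀ x, 0 ≤ g x) (g1 : ∀ x, g x ≤ 1)
    (hg : ∀ x, (∀ k : d → ℤ, k ≠ 0 → R < qf (N x)⁻¹ (zc k)) → g x = 0) :
    ∑' x, w x * g x ≤ Real.exp (Real.pi * R) / 2 * ∑' x, w x * (thd (N x) - 1) := by
  rw [← tsum_mul_left]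
  refine Summable.tsum_le_tsum (fun x => ?_) (h.sw.of_nonneg_of_le
    (fun x => mul_nonneg (h.nn x) (g0 x)) fun x => mul_le_of_le_one_right (h.nn x) (g1 x))
    (h.sm1.mul_left _)
  rw [mul_left_comm]
  refine mul_le_mul_of_nonneg_left ?_ (h.nn x)
  have p := Real.exp_pos (Real.pi * R)
  by_cases c : ∀ k : d → ℤ, k ≠ 0 → R < qf (N x)⁻¹ (zc k)
  · rw [hg x c]
    exact mul_nonneg (by positivity) (sub_nonneg.2 (one_le_thd (h.pd x)))
  · push Not at c
    obtain ⟨k, a, b⟩ := c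
    have t := thd_short (h.pd x) a b
    have u : Real.exp (Real.pi * R) * Real.exp (-(Real.pi * R)) = 1 := by
      rw [← Real.exp_add, add_neg_cancel, Real.exp_zero]
    nlinarith [g1 x]

/-- monotone in the precision -/
theorem mono (h : Fb w N' Δ') (pd : ∀ x, (N x).PosDef) (hd : ∀ x, Po.dt (N x) = Δ)
    (hN : ∀ x y, qf (N x) y ≤ qf (N' x) y) :
    Fb w N Δ ∧ ∑' x, w x * thd (N x) ≤ ∑' x, w x * thd (N' x) := by
  have a : ∀ x, w x * thd (N x) ≤ w x * thd (N' x) := fun x =>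
    mul_le_mul_of_nonneg_left (thd_mono (pd x) (h.pd x) (hN x)) (h.nn x)
  have s := h.sm.of_nonneg_of_le (fun x => mul_nonneg (h.nn x)
    (zero_le_one.trans (one_le_thd (pd x)))) a
  exact ⟨⟨h.nn, pd, hd, s⟩, s.tsum_le_tsum a h.sm⟩

end Fb

end Crest.Agent.N49.Ir

end
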