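import Crest.Agent.N49.Ir.Fib
import Crest.Agent.N49.Rw.Tw

/-!
# Row 49 (helper89): typed homogeneous towers, the irregularity `irr`, the fibre of a letter
-/

set_option autoImplicit false
set_option linter.unusedSectionVars false

open Matrix

noncomputable section

namespace Crest.Agent.N49.Ir

open Po

variable {L V : Type} [DecidableEq L] [Fintype V] [DecidableEq V]

/-- `Φ · v` depends on the coordinates of type `⊆ ty v` and is linear in each letter block -/
structure Ty (ty : V → Finset L) (Φ : (V → ℝ) → V → ℝ) : Prop where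
  ne : ∀ v, (ty v).Nonempty
  dep : ∀ v y y', (∀ c, ty c ⊆ ty v → y c = y' c) → Φ y v = Φ y' v
  lin : ∀ v, ∀ i ∈ ty v, ∀ y : V → ℝ,
    IsLinearMap ℝ fun u : V → ℝ => Φ (fun c => if i ∈ ty c then u c else y c) v

/-- the weight -/
def wt (Φ : (V → ℝ) → V → ℝ) (y : V → ℤ) : ℝ := gs 1 (Φ (zc y))

/-- the partition function -/
def ZZ (Φ : (V → ℝ) → V → ℝ) : ℝ := ∑' y, wt Φ y

/-- the linear part -/
def lp (Φ : (V → ℝ) → V → ℝ) : Matrix V V ℝ := of fun v c => Φ (Pi.single c 1) v

/-- **the irregularity** -/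
def irr (Φ : (V → ℝ) → V → ℝ) : ℝ := ZZ Φ * |(lp Φ).det|

theorem wt_pos (Φ : (V → ℝ) → V → ℝ) (y : V → ℤ) : 0 < wt Φ y := gs_pos _ _

theorem qf_one (x : V → ℝ) : qf 1 x = ∑ v, x v ^ 2 := by simp [qf, dotProduct, sq]

theorem qf_tr {W : Type} [Fintype W] [DecidableEq W] (N : Matrix W V ℝ) (x : V → ℝ) :
    qf (Nᵀ * N) x = qf 1 (N *ᵥ x) := by
  rw [← qf_conj, Matrix.mul_one]

theorem pd_tr {N : Matrix V V ℝ} (h : N.det ≠ 0) : (Nᵀ * N).PosDef := by
  have := posDef_conj (M := (1 : Matrix V V ℝ)) PosDef.one (B := N)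
    (mulVec_injective_iff_isUnit.2 ((isUnit_iff_isUnit_det _).2 h.isUnit))
  rwa [Matrix.mul_one] at this

theorem dt_tr (N : Matrix V V ℝ) : dt (Nᵀ * N) = |N.det|⁻¹ := by
  rw [dt, det_mul, det_transpose, ← sq, Real.sqrt_sq_eq_abs]

variable {ty : V → Finset L} {Φ : (V → ℝ) → V → ℝ}

namespace Ty

theorem zero (h : Ty ty Φ) {v : V} {i : L} (hi : i ∈ ty v) {z : V → ℝ}
    (hz : ∀ c, i ∈ ty c → z c = 0) : Φ z v = 0 := by
  have a := (h.lin v i hi z).map_zero
  rwa [show (fun c => if i ∈ ty c then (0 : V → ℝ) c else z c) = z from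
    funext fun c => by split_ifs with k <;> simp [hz c, *]] at a

theorem add (h : Ty ty Φ) {v : V} {i : L} (hi : i ∈ ty v) {u z : V → ℝ}
    (hu : ∀ c, i ∉ ty c → u c = 0) :
    Φ (u + z) v = Φ (fun c => if i ∈ ty c then u c else z c) v + Φ z v := by
  have a := (h.lin v i hi z).map_add u z
  rwa [show (fun c => if i ∈ ty c then (u + z) c else z c) = u + z from
    funext fun c => by split_ifs with k <;> simp [hu c, *], show
    (fun c => if i ∈ ty c then z c else z c) = z from funext fun c => ite_self _] at a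

/-- a top word does not see a configuration which misses a letter -/
theorem top (h : Ty ty Φ) {v : V} {i : L} (hi : i ∈ ty v) {u z : V → ℝ}
    (hu : ∀ c, ty c ≠ ty v → u c = 0) (hz : ∀ c, i ∈ ty c → z c = 0) : Φ (u + z) v = Φ u v := by
  have k : ∀ J : Finset L, J ⊆ ty v →
      Φ (u + z) v = Φ (u + fun c => if Disjoint J (ty c) then z c else 0) v := fun J => by
    induction J using Finset.induction_on with
    | empty => simp
    | insert j J _ ih =>
      intro a
      have hj := a (Finset.mem_insert_self _ _)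
      rw [ih ((Finset.subset_insert _ _).trans a), h.add hj fun c b => hu c fun e => b (e ▸ hj),
        h.zero hi (z := fun c => if Disjoint J (ty c) then z c else 0) fun c b => by
          simp [hz c b], add_zero]
      congr 1
      funext c
      by_cases b : j ∈ ty c
      · simp [b]
      · simp [b, hu c fun e => b (e ▸ hj)]
  rw [k _ le_rfl]
  refine h.dep v _ _ fun c a => ?_
  obtain ⟨j, b⟩ := h.ne c
  simp [Finset.not_disjoint_iff.2 ⟨j, a b, b⟩]

theorem lp_ne (h : Ty ty Φ) {v c : V} (e : ty c ≠ ty v) : lp Φ v c = 0 := by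
  by_cases a : ty v ⊆ ty c
  · obtain ⟨i, hi⟩ := h.ne v
    refine (h.dep v _ 0 fun c' b => Pi.single_eq_of_ne ?_ _).trans (h.zero hi fun _ _ => rfl)
    rintro rfl
    exact e (b.antisymm a)
  · obtain ⟨i, hi, b⟩ := Finset.not_subset.1 a
    refine h.zero hi fun c' k => Pi.single_eq_of_ne ?_ _
    rintro rfl
    exact b k

/-- linearity in a block, in coordinates -/
theorem sum (h : Ty ty Φ) {v : V} {i : L} (hi : i ∈ ty v) (y u : V → ℝ) :
    Φ (fun c => if i ∈ ty c then u c else y c) v =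
      ∑ c, Φ (fun c' => if i ∈ ty c' then (Pi.single c 1 : V → ℝ) c' else y c') v * u c := by
  have a := (IsLinearMap.mk' _ (h.lin v i hi y)).pi_apply_eq_sum_univ u
  simp only [IsLinearMap.mk'_apply, smul_eq_mul] at a
  rw [a]
  refine Finset.sum_congr rfl fun c _ => ?_
  rw [mul_comm]
  congr 3
  funext c'
  simp [Pi.single_apply, eq_comm]

theorem split (h : Ty ty Φ) (v : V) (y : V → ℝ) :
    Φ y v = (lp Φ *ᵥ y) v + Φ (fun c => if ty c = ty v then 0 else y c) v := by
  obtain ⟨i, hi⟩ := h.ne v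
  obtain ⟨u, hu⟩ : ∃ u : V → ℝ, u = fun c => if ty c = ty v then y c else 0 := ⟨_, rfl⟩
  obtain ⟨z, hz⟩ : ∃ z : V → ℝ, z = fun c => if ty c = ty v then 0 else y c := ⟨_, rfl⟩
  have u1 : ∀ c, ty c ≠ ty v → u c = 0 := fun c b => by simp [hu, b]
  have u0 : ∀ c, i ∉ ty c → u c = 0 := fun c b => u1 c fun e => b (e ▸ hi)
  have e1 : y = u + z := funext fun c => by by_cases b : ty c = ty v <;> simp [hu, hz, b]
  have e2 : (fun c => if i ∈ ty c then u c else z c) =
      u + fun c => if i ∈ ty c then 0 else z c := funext fun c => by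
    by_cases b : i ∈ ty c <;> simp [b, u0 c]
  have e3 : (fun c => if i ∈ ty c then u c else (0 : V → ℝ) c) = u := funext fun c => by
    by_cases b : i ∈ ty c <;> simp [b, u0 c]
  have e4 : Φ u v = (lp Φ *ᵥ y) v := by
    rw [← e3, h.sum hi]
    refine Finset.sum_congr rfl fun c _ => ?_
    by_cases b : ty c = ty v
    · rw [hu]
      simp only [b, if_true, lp, of_apply]
      congr 2
      funext c'
      by_cases k : c' = c
      · simp [k, b, hi]
      · simp [k]
    · simp [u1 c b, h.lp_ne b]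
  rw [← hz, ← e4, ← h.top hi u1 (z := fun c => if i ∈ ty c then 0 else z c) fun c b => if_pos b,
    ← e2, ← h.add hi u0, ← e1]

theorem inv_ne (h : Ty ty Φ) (hd : (lp Φ).det ≠ 0) {v c : V} (e : (ty c).card ≠ (ty v).card) :
    (lp Φ)⁻¹ v c = 0 := by
  have := invertibleOfIsUnitDet _ hd.isUnit
  rcases e.lt_or_gt with a | a
  · exact blockTriangular_inv_of_blockTriangular (b := fun v => (ty v).card)
      (fun _ _ k => h.lp_ne fun e => k.ne (congrArg _ e)) a
  · exact blockTriangular_inv_of_blockTriangular (b := fun v => OrderDual.toDual (ty v).card)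
      (fun _ _ k => h.lp_ne fun e => k.ne (congrArg (fun s => OrderDual.toDual s.card) e)) a

theorem summable (h : Ty ty Φ) (hd : (lp Φ).det ≠ 0) : Summable (wt Φ) := by
  have a : ∀ y : V → ℤ, zc y - (lp Φ)⁻¹ *ᵥ Φ (zc y) = (lp Φ)⁻¹ *ᵥ (lp Φ *ᵥ zc y - Φ (zc y)) :=
    fun y => by rw [mulVec_sub, mulVec_mulVec, nonsing_inv_mul _ hd.isUnit, one_mulVec]
  refine (Rw.summable_wt' (lev := fun v => (ty v).card) (M := (lp Φ)ᵀ * lp Φ)
    (Θ := fun y => zc y - (lp Φ)⁻¹ *ᵥ Φ (zc y)) (fun y y' v k => ?_) (fun v c k => ?_)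
    (pd_tr hd)).congr fun y => ?_
  · simp only [a, mulVec, dotProduct]
    refine Finset.sum_congr rfl fun c _ => ?_
    by_cases b : (ty c).card = (ty v).card
    · congr 1
      have s := h.split c (zc y)
      have s' := h.split c (zc y')
      have t := h.dep c (fun c' => if ty c' = ty c then 0 else zc y c')
        (fun c' => if ty c' = ty c then 0 else zc y' c') fun c' m => by
          split_ifs with n
          · rfl
          · exact congrArg _ (k c' ((Finset.card_lt_card (m.ssubset_of_ne n)).trans_eq b))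
      change (lp Φ *ᵥ zc y) c - Φ (zc y) c = (lp Φ *ᵥ zc y') c - Φ (zc y') c
      linarith
    · rw [h.inv_ne hd b, zero_mul, zero_mul]
  · rw [mul_apply]
    refine Finset.sum_eq_zero fun a _ => ?_
    by_cases b : ty v = ty a
    · rw [h.lp_ne fun e => k (congrArg _ (b.trans e.symm)), mul_zero]
    · rw [transpose_apply, h.lp_ne b, zero_mul]
  · rw [Rw.wt, sub_sub_cancel, gs, qf_tr, mulVec_mulVec, mul_nonsing_inv _ hd.isUnit, one_mulVec]
    rfl

theorem ZZ_pos (h : Ty ty Φ) (hd : (lp Φ).det ≠ 0) : 0 < ZZ Φ :=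
  (h.summable hd).tsum_pos (fun y => (wt_pos Φ y).le) 0 (wt_pos Φ 0)

end Ty

/-! ### the fibre of a letter -/

variable (ty) in
/-- the coordinates whose type contains `i` -/
abbrev In (i : L) : Type := {v // i ∈ ty v}

variable (ty) in
/-- the coordinates whose type misses `i` -/
abbrev Out (i : L) : Type := {v // i ∉ ty v}

/-- join -/
def jn {α : Type} {i : L} (r : Out ty i → α) (u : In ty i → α) : V → α :=
  fun v => if h : i ∈ ty v then u ⟨v, h⟩ else r ⟨v, h⟩

variable (ty) in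
/-- configurations = rest × fibre -/
def jnE (α : Type) (i : L) : (Out ty i → α) × (In ty i → α) ≃ (V → α) where
  toFun p := jn p.1 p.2
  invFun y := (fun v => y v, fun v => y v)
  left_inv _ := Prod.ext (funext fun v => dif_neg v.2) (funext fun v => dif_pos v.2)
  right_inv y := funext fun v => by by_cases h : i ∈ ty v <;> simp [jn, h]

theorem jn_in {α : Type} {i : L} (r : Out ty i → α) (u : In ty i → α) (v : In ty i) :
    jn r u v = u v := dif_pos v.2

theorem jn_out {α : Type} {i : L} (r : Out ty i → α) (u : In ty i → α) (v : Out ty i) :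
    jn r u v = r v := dif_neg v.2

theorem zc_jn {i : L} (r : Out ty i → ℤ) (u : In ty i → ℤ) : zc (jn r u) = jn (zc r) (zc u) :=
  funext fun v => by by_cases h : i ∈ ty v <;> simp [jn, zc, h]

variable (ty Φ) in
/-- delete a letter -/
def del (i : L) (r : Out ty i → ℝ) (v : Out ty i) : ℝ := Φ (jn r 0) v

variable (Φ) in
/-- the matrix of the fibre -/
def fm {i : L} (r : Out ty i → ℝ) : Matrix (In ty i) (In ty i) ℝ :=
  of fun v c => Φ (jn r (Pi.single c 1)) v

namespace Ty

theorem out (h : Ty ty Φ) {i : L} (r : Out ty i → ℝ) (u : In ty i → ℝ) (v : Out ty i) :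
    Φ (jn r u) v = del ty Φ i r v :=
  h.dep v _ _ fun c a => by simp [jn, show i ∉ ty c from fun b => v.2 (a b)]

theorem linIn (h : Ty ty Φ) {i : L} (r : Out ty i → ℝ) (v : In ty i) :
    IsLinearMap ℝ fun u : In ty i → ℝ => Φ (jn r u) v := by
  have a := h.lin v i v.2 (jn r 0)
  have e : ∀ u : In ty i → ℝ, jn r u = fun c => if i ∈ ty c then jn 0 u c else jn r 0 c :=
    fun u => funext fun c => by by_cases b : i ∈ ty c <;> simp [jn, b]
  refine ⟨fun u u' => ?_, fun t u => ?_⟩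
  · rw [e, e u, e u', ← a.map_add]
    congr 1
    funext c
    by_cases b : i ∈ ty c <;> simp [jn, b]
  · rw [e, e u, ← a.map_smul]
    congr 1
    funext c
    by_cases b : i ∈ ty c <;> simp [jn, b]

theorem inn (h : Ty ty Φ) {i : L} (r : Out ty i → ℝ) (u : In ty i → ℝ) (v : In ty i) :
    Φ (jn r u) v = (fm Φ r *ᵥ u) v := by
  have a := (IsLinearMap.mk' _ (h.linIn r v)).pi_apply_eq_sum_univ u
  simp only [IsLinearMap.mk'_apply, smul_eq_mul] at a
  rw [a]
  refine Finset.sum_congr rfl fun c _ => ?_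
  rw [mul_comm]
  congr 3
  funext c'
  simp [Pi.single_apply, eq_comm]

theorem wt_jn (h : Ty ty Φ) {i : L} (r : Out ty i → ℤ) (u : In ty i → ℤ) :
    wt Φ (jn r u) = wt (del ty Φ i) r * gs ((fm Φ (zc r))ᵀ * fm Φ (zc r)) (zc u) := by
  rw [wt, wt, gs, gs, gs, qf_tr, ← Real.exp_add, ← neg_add, ← mul_add, qf_one, qf_one, qf_one,
    zc_jn, ← Fintype.sum_subtype_add_sum_subtype fun v => i ∈ ty v, add_comm]
  simp only [h.out, h.inn]

theorem tdel (h : Ty ty Φ) (i : L) : Ty (fun v : Out ty i => ty v) (del ty Φ i) := by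
  refine ⟨fun v => h.ne v, fun v y y' a => h.dep v _ _ fun c b => ?_, fun v j hj y => ?_⟩
  · by_cases k : i ∈ ty c
    · simp [jn, k]
    · simpa [jn, k] using a ⟨c, k⟩ b
  have a := h.lin v j hj (jn y 0)
  have e : ∀ u : Out ty i → ℝ, jn (fun c : Out ty i => if j ∈ ty c then u c else y c) 0 =
      fun c => if j ∈ ty c then jn u 0 c else jn y 0 c := fun u => funext fun c => by
    by_cases b : i ∈ ty c <;> simp [jn, b]
  simp only [del, e]
  refine ⟨fun u u' => ?_, fun t u => ?_⟩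
  · rw [← a.map_add]
    congr 1
    funext c
    by_cases b : i ∈ ty c <;> simp [jn, b]
  · rw [← a.map_smul]
    congr 1
    funext c
    by_cases b : i ∈ ty c <;> simp [jn, b]

theorem fm_top (h : Ty ty Φ) {i : L} (r : Out ty i → ℝ) {v c : In ty i}
    (e : ¬ty c ⊂ ty v) : fm Φ r v c = lp Φ v c := by
  have s : jn r (Pi.single c 1) = Pi.single c.1 1 + jn r 0 := funext fun c' => by
    by_cases b : i ∈ ty c'
    · simp [jn, b, Pi.single_apply, Subtype.ext_iff]
    · simp [jn, b, Pi.single_eq_of_ne fun k : c' = c.1 => b (k ▸ c.2)]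
  have z : ∀ c', i ∈ ty c' → jn r (0 : In ty i → ℝ) c' = 0 := fun c' b => dif_pos b
  by_cases a : ty c = ty v
  · exact (congrFun (congrArg Φ s) v).trans
      (h.top v.2 (fun c' b => Pi.single_eq_of_ne (fun k : c' = c.1 => b (k ▸ a)) _) z)
  · rw [h.lp_ne a, fm, of_apply, s]
    refine (h.dep v _ (jn r 0) fun c' b => ?_).trans (h.zero v.2 z)
    simp [Pi.single_eq_of_ne fun k : c' = c.1 => e ((k ▸ b).ssubset_of_ne a)]

/-- the determinant of the fibre is constant -/
theorem det_fm (h : Ty ty Φ) {i : L} (r : Out ty i → ℝ) :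
    (fm Φ r).det = (toSquareBlockProp (lp Φ) fun v => i ∈ ty v).det := by
  have k : ∀ v c : In ty i, (ty v).card ≤ (ty c).card → fm Φ r v c = lp Φ v c :=
    fun v c a => h.fm_top r fun b => (Finset.card_lt_card b).not_ge a
  have n : ∀ v c : In ty i, (ty v).card < (ty c).card → lp Φ v c = 0 :=
    fun v c a => h.lp_ne fun e => a.ne' (congrArg _ e)
  rw [BlockTriangular.det (b := fun v : In ty i => OrderDual.toDual (ty v).card)
    fun v c a => (k v c (le_of_lt a)).trans (n v c a),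
    BlockTriangular.det (b := fun v : In ty i => OrderDual.toDual (ty v).card)
    (M := toSquareBlockProp (lp Φ) fun v => i ∈ ty v) fun v c a => n v c a]
  refine Finset.prod_congr rfl fun a _ => congrArg det (Matrix.ext fun v c => k v c ?_)
  exact le_of_eq (OrderDual.toDual.injective (v.2.trans c.2.symm))

theorem lp_del (i : L) :
    lp (del ty Φ i) = toSquareBlockProp (lp Φ) fun v => ¬i ∈ ty v := by
  ext v c
  refine congrFun (congrArg Φ (funext fun c' => ?_)) v
  by_cases b : i ∈ ty c'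
  · simp [jn, b, Pi.single_eq_of_ne fun k : c' = c.1 => c.2 (k ▸ b)]
  · simp [jn, b, Pi.single_apply, Subtype.ext_iff]

theorem det_lp (h : Ty ty Φ) {i : L} (r : Out ty i → ℝ) :
    (lp Φ).det = (fm Φ r).det * (lp (del ty Φ i)).det := by
  rw [h.det_fm, lp_del]
  exact twoBlockTriangular_det _ _ fun v a c b => h.lp_ne fun e => a (e ▸ b)

theorem det_del (h : Ty ty Φ) (hd : (lp Φ).det ≠ 0) (i : L) : (lp (del ty Φ i)).det ≠ 0 :=
  right_ne_zero_of_mul (h.det_lp (i := i) 0 ▸ hd)

theorem det_fm_ne (h : Ty ty Φ) (hd : (lp Φ).det ≠ 0) {i : L} (r : Out ty i → ℝ) :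
    (fm Φ r).det ≠ 0 := left_ne_zero_of_mul (h.det_lp r ▸ hd)

/-- the law is a fibred Gaussian weight over the rest -/
theorem fb (h : Ty ty Φ) (hd : (lp Φ).det ≠ 0) (i : L) : Fb (wt (del ty Φ i))
    (fun r => (fm Φ (zc r))ᵀ * fm Φ (zc r)) |(fm Φ (0 : Out ty i → ℝ)).det|⁻¹ :=
  .of_summable (fun _ => (wt_pos _ _).le) (fun _ => pd_tr (h.det_fm_ne hd _))
    (fun _ => by rw [dt_tr, h.det_fm, h.det_fm])
    (((jnE ty ℤ i).summable_iff.2 (h.summable hd)).congr fun p => h.wt_jn p.1 p.2)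

theorem tsum_jn (h : Ty ty Φ) (i : L) {E : Type*} [AddCommMonoid E] [TopologicalSpace E]
    (F : ℝ → (V → ℤ) → E) : ∑' y, F (wt Φ y) y = ∑' p : (Out ty i → ℤ) × (In ty i → ℤ),
      F (wt (del ty Φ i) p.1 * gs ((fm Φ (zc p.1))ᵀ * fm Φ (zc p.1)) (zc p.2)) (jn p.1 p.2) := by
  rw [← (jnE ty ℤ i).tsum_eq]
  exact tsum_congr fun p => by rw [← h.wt_jn]; rfl

/-- **the fibre identity** -/
theorem irr_eq (h : Ty ty Φ) (hd : (lp Φ).det ≠ 0) (i : L) : irr Φ = |(lp (del ty Φ i)).det| *
    ∑' r, wt (del ty Φ i) r * thd ((fm Φ (zc r))ᵀ * fm Φ (zc r)) := by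
  have := abs_pos.2 (h.det_fm_ne hd (0 : Out ty i → ℝ))
  rw [irr, ZZ, h.tsum_jn i fun a _ => a, (h.fb hd i).tsum_zero, h.det_lp (i := i) 0, abs_mul]
  field_simp

theorem irr_del_le (h : Ty ty Φ) (hd : (lp Φ).det ≠ 0) (i : L) : irr (del ty Φ i) ≤ irr Φ := by
  rw [h.irr_eq hd i, irr, mul_comm]
  exact mul_le_mul_of_nonneg_left (h.fb hd i).le (abs_nonneg _)

end Ty

theorem Ty.one_le_irr : ∀ (n : ℕ) {V : Type} [Fintype V] [DecidableEq V] {ty : V → Finset L}
    {Φ : (V → ℝ) → V → ℝ}, Fintype.card V ≤ n → Ty ty Φ → (lp Φ).det ≠ 0 → 1 ≤ irr Φ := by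
  intro n
  induction n with
  | zero =>
    intro V _ _ ty Φ a h _
    have := Fintype.card_eq_zero_iff.1 (Nat.le_zero.1 a)
    simp [irr, ZZ, wt, gs, qf, dotProduct]
  | succ n ih =>
    intro V _ _ ty Φ a h hd
    rcases isEmpty_or_nonempty V with _ | ⟨⟨v⟩⟩
    · simp [irr, ZZ, wt, gs, qf, dotProduct]
    obtain ⟨i, hi⟩ := h.ne v
    exact (ih (Nat.le_of_lt_succ ((Fintype.card_subtype_lt (x := v) (not_not.2 hi)).trans_le a))
      (h.tdel i) (h.det_del hd i)).trans (h.irr_del_le hd i)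

theorem Ty.one_le (h : Ty ty Φ) (hd : (lp Φ).det ≠ 0) : 1 ≤ irr Φ := one_le_irr _ le_rfl h hd

end Crest.Agent.N49.Ir

end
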