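import Crest.Agent.N49.Ir.Op

/-!
# Row 49 (helper89): fixing the pure words of a letter; Markov; smoothness of fibres
-/

set_option autoImplicit false
set_option linter.unusedSectionVars false

open Matrix

noncomputable section

namespace Crest.Agent.N49.Ir

open Po

variable {L V : Type} [DecidableEq L] [Fintype V] [DecidableEq V]
  {ty : V → Finset L} {Φ : (V → ℝ) → V → ℝ}

/-- join along a predicate -/
def jq {α : Type} {P : V → Prop} [DecidablePred P] (u : {v // P v} → α) (y : {v // ¬P v} → α) :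
    V → α := fun v => if h : P v then u ⟨v, h⟩ else y ⟨v, h⟩

/-- `jq` is a bijection -/
def jqE (α : Type) (P : V → Prop) [DecidablePred P] :
    ({v // P v} → α) × ({v // ¬P v} → α) ≃ (V → α) where
  toFun p := jq p.1 p.2
  invFun y := (fun v => y v, fun v => y v)
  left_inv _ := Prod.ext (funext fun v => dif_pos v.2) (funext fun v => dif_neg v.2)
  right_inv y := funext fun v => by by_cases h : P v <;> simp [jq, h]

theorem zc_jq {P : V → Prop} [DecidablePred P] (u : {v // P v} → ℤ) (y : {v // ¬P v} → ℤ) :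
    zc (jq u y) = jq (zc u) (zc y) := funext fun v => by by_cases h : P v <;> simp [jq, zc, h]

variable (ty) in
/-- pure words -/
abbrev Pu (j : L) : Type := {v // ty v = {j}}

variable (ty) in
/-- the other words -/
abbrev Rs (j : L) : Type := {v // ¬ty v = {j}}

variable (ty Φ) in
/-- the pure part -/
def pu (j : L) (u : Pu ty j → ℝ) (v : Pu ty j) : ℝ := Φ (jq u 0) v

variable (Φ) in
/-- fix the pure words of `j` -/
def fix {j : L} (u : Pu ty j → ℝ) (y : Rs ty j → ℝ) (v : Rs ty j) : ℝ := Φ (jq u y) v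

namespace Ty

theorem ex_ne (h : Ty ty Φ) {j : L} (v : Rs ty j) : ∃ i ∈ ty v, i ≠ j := by
  by_contra! a
  exact v.2 ((h.ne v).subset_singleton_iff.1 fun i hi => Finset.mem_singleton.2 (a i hi))

theorem pu_eq (h : Ty ty Φ) {j : L} (y : V → ℝ) (v : Pu ty j) :
    Φ y v = pu ty Φ j (y ∘ Subtype.val) v :=
  h.dep v _ _ fun c a => by
    simp [jq, (h.ne c).subset_singleton_iff.1 (a.trans_eq v.2)]

theorem emb_pu (h : Ty ty Φ) (j : L) :
    Emb (fun _ : Pu ty j => {()}) (pu ty Φ j) ty Φ (fun _ => j) Subtype.val :=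
  ⟨fun _ _ _ => rfl, Subtype.val_injective, fun v => by simp [v.2], fun v a =>
    ⟨⟨v, (h.ne v).subset_singleton_iff.1 fun i hi => by
      obtain ⟨_, rfl⟩ := a i hi
      exact Finset.mem_singleton_self _⟩, rfl⟩, h.pu_eq⟩

theorem tfix (h : Ty ty Φ) {j : L} (u : Pu ty j → ℝ) :
    Ty (fun v : Rs ty j => (ty v).erase j) (fix Φ u) := by
  refine ⟨fun v => (h.ex_ne v).imp fun i a => Finset.mem_erase.2 ⟨a.2, a.1⟩,
    fun v y y' a => h.dep v _ _ fun c b => ?_, fun v i hi y => ?_⟩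
  · by_cases k : ty c = {j}
    · simp [jq, k]
    · simpa [jq, k] using a ⟨c, k⟩ (Finset.erase_subset_erase j b)
  obtain ⟨ij, hi⟩ := Finset.mem_erase.1 hi
  have a := h.lin v i hi (jq u y)
  have e : ∀ w : Rs ty j → ℝ, jq u (fun c : Rs ty j => if i ∈ (ty c).erase j then w c else y c) =
      fun c => if i ∈ ty c then jq 0 w c else jq u y c := fun w => funext fun c => by
    by_cases b : ty c = {j} <;> simp [jq, b, ij]
  simp only [fix, e]
  refine ⟨fun w w' => ?_, fun t w => ?_⟩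
  · rw [← a.map_add]
    congr 1
    funext c
    by_cases b : ty c = {j} <;> simp [jq, b]
  · rw [← a.map_smul]
    congr 1
    funext c
    by_cases b : ty c = {j} <;> simp [jq, b]

theorem wt_jq (h : Ty ty Φ) {j : L} (u : Pu ty j → ℤ) (y : Rs ty j → ℤ) :
    wt Φ (jq u y) = wt (pu ty Φ j) u * wt (fix Φ (zc u)) y := by
  rw [wt, wt, wt, gs, gs, gs, ← Real.exp_add, ← neg_add, ← mul_add, qf_one, qf_one, qf_one,
    zc_jq, ← Fintype.sum_subtype_add_sum_subtype fun v => ty v = {j}]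
  have e : jq (zc u) (zc y) ∘ Subtype.val = zc u := funext fun v => dif_pos v.2
  simp only [h.pu_eq, e]
  rfl

theorem det_top (h : Ty ty Φ) {P : V → Prop} [DecidablePred P]
    {N : Matrix {v // P v} {v // P v} ℝ}
    (k : ∀ v c : {v // P v}, (ty v).card ≤ (ty c).card → N v c = lp Φ v c) :
    N.det = (toSquareBlockProp (lp Φ) P).det := by
  have n : ∀ v c : {v // P v}, (ty v).card < (ty c).card → lp Φ v c = 0 :=
    fun v c a => h.lp_ne fun e => a.ne' (congrArg _ e)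
  rw [BlockTriangular.det (b := fun v : {v // P v} => OrderDual.toDual (ty v).card)
    fun v c a => (k v c (le_of_lt a)).trans (n v c a),
    BlockTriangular.det (b := fun v : {v // P v} => OrderDual.toDual (ty v).card)
    (M := toSquareBlockProp (lp Φ) P) fun v c a => n v c a]
  refine Finset.prod_congr rfl fun a _ => congrArg det (Matrix.ext fun v c => k v c ?_)
  exact le_of_eq (OrderDual.toDual.injective (v.2.trans c.2.symm))

theorem det_fix (h : Ty ty Φ) {j : L} (u : Pu ty j → ℝ) :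
    (lp (fix Φ u)).det = (toSquareBlockProp (lp Φ) fun v => ¬ty v = {j}).det := by
  refine h.det_top fun v c e => ?_
  obtain ⟨i, hi, ij⟩ := h.ex_ne v
  have s : jq u (Pi.single c 1) = Pi.single c.1 1 + jq u 0 := funext fun c' => by
    by_cases b : ty c' = {j}
    · simp [jq, b, Pi.single_eq_of_ne fun k : c' = c.1 => c.2 (k ▸ b)]
    · simp [jq, b, Pi.single_apply, Subtype.ext_iff]
  have z : ∀ c', i ∈ ty c' → jq u (0 : Rs ty j → ℝ) c' = 0 := fun c' b =>
    dif_neg fun k : ty c' = {j} => ij (Finset.mem_singleton.1 (k ▸ b))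
  by_cases a : ty c = ty v
  · exact (congrFun (congrArg Φ s) v).trans
      (h.top hi (fun c' b => Pi.single_eq_of_ne (fun k : c' = c.1 => b (k ▸ a)) _) z)
  · rw [h.lp_ne a, lp, of_apply, fix, s]
    refine (h.dep v _ (jq u 0) fun c' b => ?_).trans (h.zero hi z)
    simp [Pi.single_eq_of_ne fun k : c' = c.1 =>
      (Finset.card_lt_card ((k ▸ b).ssubset_of_ne a)).not_ge e]

theorem det_pu_fix (h : Ty ty Φ) {j : L} (u : Pu ty j → ℝ) :
    (lp Φ).det = (lp (pu ty Φ j)).det * (lp (fix Φ u)).det := by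
  rw [h.det_fix, lp_sub Subtype.val_injective h.pu_eq]
  exact twoBlockTriangular_det _ _ fun v a c b => h.lp_ne fun e => a (e ▸ b)

theorem det_fix_ne (h : Ty ty Φ) (hd : (lp Φ).det ≠ 0) {j : L} (u : Pu ty j → ℝ) :
    (lp (fix Φ u)).det ≠ 0 := right_ne_zero_of_mul (h.det_pu_fix u ▸ hd)

theorem tsum_fix (h : Ty ty Φ) (hd : (lp Φ).det ≠ 0) (j : L) {g : (Pu ty j → ℤ) → ℝ}
    (g0 : ∀ u, 0 ≤ g u) (g1 : ∀ u, g u ≤ 1) :
    HasSum (fun u => wt (pu ty Φ j) u * irr (fix Φ (zc u)) * g u)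
      ((∑' y, wt Φ y * g (y ∘ Subtype.val)) * |(lp (fix Φ (0 : Pu ty j → ℝ))).det|) := by
  have s : Summable fun y : V → ℤ => wt Φ y * g (y ∘ Subtype.val) :=
    (h.summable hd).of_nonneg_of_le (fun y => mul_nonneg (wt_pos _ _).le (g0 _))
      fun y => mul_le_of_le_one_right (wt_pos _ _).le (g1 _)
  have a := (jqE ℤ fun v => ty v = {j}).hasSum_iff.2 s.hasSum
  have b := a.prod_fiberwise (g := fun u => wt (pu ty Φ j) u * ZZ (fix Φ (zc u)) * g u) fun u => by
    have e : ∀ y, jq u y ∘ Subtype.val = u := fun y => funext fun v => dif_pos v.2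
    have c := ((h.tfix (zc u)).summable (h.det_fix_ne hd _)).hasSum.mul_left
      (wt (pu ty Φ j) u) |>.mul_right (g u)
    simpa [jqE, h.wt_jq, e, ZZ] using c
  have c := b.mul_right |(lp (fix Φ (0 : Pu ty j → ℝ))).det|
  simpa only [irr, h.det_fix, mul_assoc, mul_comm (g _)] using c

/-- **the FIX identity** -/
theorem irr_fix (h : Ty ty Φ) (hd : (lp Φ).det ≠ 0) (j : L) :
    irr Φ = |(lp (pu ty Φ j)).det| * ∑' u, wt (pu ty Φ j) u * irr (fix Φ (zc u)) := by
  have a := (h.tsum_fix hd j (g := fun _ => 1) (fun _ => zero_le_one) fun _ => le_rfl).tsum_eq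
  simp only [mul_one] at a
  rw [a, irr, h.det_pu_fix (j := j) 0, abs_mul, ZZ]
  ring

theorem fix_aux (h : Ty ty Φ) (hd : (lp Φ).det ≠ 0) (j : L) {τ : ℝ} (hτ : irr Φ ≤ 1 + τ) :
    ∃ A, HasSum (fun u => wt (pu ty Φ j) u * irr (fix Φ (zc u))) A ∧
      A = ZZ Φ * |(lp (fix Φ (0 : Pu ty j → ℝ))).det| ∧ Summable (wt (pu ty Φ j)) ∧
      ZZ (pu ty Φ j) ≤ A ∧ A ≤ (1 + τ) * ZZ (pu ty Φ j) := by
  have a := h.tsum_fix hd j (g := fun _ => 1) (fun _ => zero_le_one) fun _ => le_rfl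
  simp only [mul_one] at a
  have E := h.emb_pu j
  have s := (E.tyd h).summable (E.det h hd)
  have o := (E.tyd h).one_le (E.det h hd)
  refine ⟨_, a, rfl, s, hasSum_le (fun u => le_mul_of_one_le_right (wt_pos _ _).le
    ((h.tfix _).one_le (h.det_fix_ne hd _))) s.hasSum a, ?_⟩
  have p := abs_pos.2 (E.det h hd)
  have b := h.irr_fix hd j
  have t := (h.one_le hd).trans hτ
  rw [a.tsum_eq] at b
  refine le_of_mul_le_mul_left ?_ p
  rw [← b, mul_left_comm, mul_comm _ (ZZ _)]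
  exact hτ.trans (le_mul_of_one_le_right (by linarith) o)

/-- the marginal on the pure words is close to the pure law -/
theorem marg_pu (h : Ty ty Φ) (hd : (lp Φ).det ≠ 0) (j : L) {τ ε : ℝ} (hτ : irr Φ ≤ 1 + τ)
    (hε : 0 ≤ ε) {g : (Pu ty j → ℤ) → ℝ} (g0 : ∀ u, 0 ≤ g u) (g1 : ∀ u, g u ≤ 1)
    (hg : ∑' u, wt (pu ty Φ j) u * g u ≤ ε * ZZ (pu ty Φ j)) :
    ∑' y, wt Φ y * g (y ∘ Subtype.val) ≤ (τ + ε) * ZZ Φ := by
  obtain ⟨A, a, e, s, l, u⟩ := h.fix_aux hd j hτ
  have t := (h.one_le hd).trans hτ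
  have sg : Summable fun u => wt (pu ty Φ j) u * g u :=
    s.of_nonneg_of_le (fun y => mul_nonneg (wt_pos _ _).le (g0 _))
      fun y => mul_le_of_le_one_right (wt_pos _ _).le (g1 _)
  have b := hasSum_le (fun u => ?_) (h.tsum_fix hd j g0 g1) ((a.sub s.hasSum).add sg.hasSum)
  · refine le_of_mul_le_mul_right (b.trans ?_) (abs_pos.2 (h.det_fix_ne hd 0))
    rw [mul_assoc, ← e]
    have := mul_le_mul_of_nonneg_left l (by linarith : 0 ≤ τ + ε)
    change A - ZZ (pu ty Φ j) + _ ≤ _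
    linarith
  · have := mul_nonneg (mul_nonneg (wt_pos (pu ty Φ j) u).le
      (sub_nonneg.2 ((h.tfix (zc u)).one_le (h.det_fix_ne hd _)))) (sub_nonneg.2 (g1 u))
    linarith

/-- **Markov**: most values of the pure words leave a regular tower -/
theorem markov (h : Ty ty Φ) (hd : (lp Φ).det ≠ 0) (j : L) {τ τ' : ℝ} (hτ : irr Φ ≤ 1 + τ)
    (h' : 0 < τ') {g : (Pu ty j → ℤ) → ℝ} (g0 : ∀ u, 0 ≤ g u) (g1 : ∀ u, g u ≤ 1)
    (hg : ∀ u, irr (fix Φ (zc u)) ≤ 1 + τ' → g u = 0) :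
    ∑' u, wt (pu ty Φ j) u * g u ≤ τ / τ' * ZZ (pu ty Φ j) := by
  obtain ⟨A, a, -, s, -, u⟩ := h.fix_aux hd j hτ
  have sg : Summable fun u => wt (pu ty Φ j) u * g u :=
    s.of_nonneg_of_le (fun y => mul_nonneg (wt_pos _ _).le (g0 _))
      fun y => mul_le_of_le_one_right (wt_pos _ _).le (g1 _)
  have b := hasSum_le (fun u => ?_) (sg.hasSum.mul_left τ') (a.sub s.hasSum)
  · rw [div_mul_eq_mul_div, le_div_iff₀' h']
    change _ ≤ A - ZZ (pu ty Φ j) at b
    linarith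
  have w := wt_pos (pu ty Φ j) u
  have o := (h.tfix (zc u)).one_le (h.det_fix_ne hd _)
  rcases le_or_gt (irr (fix Φ (zc u))) (1 + τ') with k | k
  · rw [hg u k]
    nlinarith
  · nlinarith [mul_pos h' w, g1 u]

/-! ### smoothness of the fibres -/

theorem ex_le (h : Ty ty Φ) (hd : (lp Φ).det ≠ 0) (i : L) {τ : ℝ} (hτ : irr Φ ≤ 1 + τ) :
    ∑' r, wt (del ty Φ i) r * (thd ((fm Φ (zc r))ᵀ * fm Φ (zc r)) - 1) ≤ τ * ZZ (del ty Φ i) := by
  have o := (h.tdel i).one_le (h.det_del hd i)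
  have t := (h.one_le hd).trans hτ
  rw [h.irr_eq hd i] at hτ
  refine le_of_mul_le_mul_left ?_ (abs_pos.2 (h.det_del hd i))
  rw [(h.fb hd i).ex_eq, mul_sub, mul_left_comm, mul_comm _ (ZZ _)]
  change _ - _ * ZZ (del ty Φ i) ≤ τ * irr (del ty Φ i)
  rw [mul_comm _ (ZZ _)]
  change _ - irr (del ty Φ i) ≤ _
  nlinarith

theorem _root_.Crest.Agent.N49.Ir.short {N : Matrix V V ℝ} (hN : N.det ≠ 0) {k : V → ℝ}
    (hk : ∀ u, (∀ v, |(N *ᵥ u) v| ≤ 1) → |k ⬝ᵥ u| ≤ 1) : qf (Nᵀ * N)⁻¹ k ≤ 1 := by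
  have a := hk (N⁻¹ *ᵥ fun v => if 0 ≤ (N⁻¹ᵀ *ᵥ k) v then 1 else -1) fun v => by
    rw [mulVec_mulVec, mul_nonsing_inv _ hN.isUnit, one_mulVec]
    split_ifs <;> simp
  have e : ∀ x : ℝ, (x * if 0 ≤ x then 1 else -1) = |x| := fun x => by
    split_ifs with b
    · rw [mul_one, abs_of_nonneg b]
    · rw [mul_neg_one, abs_of_neg (not_le.1 b)]
  rw [dotProduct_mulVec, ← mulVec_transpose, dotProduct] at a
  simp only [e] at a
  rw [Matrix.mul_inv_rev, ← transpose_nonsing_inv, ← transpose_transpose N⁻¹, transpose_transpose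
    N⁻¹ᵀ, qf_tr, qf_one]
  have b := Finset.sum_sq_le_sq_sum_of_nonneg (s := Finset.univ)
    (f := fun v => |(N⁻¹ᵀ *ᵥ k) v|) fun _ _ => abs_nonneg _
  simp only [sq_abs] at b
  exact b.trans ((sq_le_one_iff_abs_le_one _).2 a)

theorem _root_.Crest.Agent.N49.Ir.exp_pi_le : Real.exp (Real.pi * 1) / 2 ≤ 28 := by
  have a : Real.exp (Real.pi * 1) ≤ Real.exp 1 ^ 4 := by
    rw [← Real.exp_nat_mul]
    exact Real.exp_le_exp.2 (by have := Real.pi_le_four; push_cast; linarith)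
  have b := pow_le_pow_left₀ (Real.exp_pos 1).le Real.exp_one_lt_d9.le 4
  have c : (2.7182818286 : ℝ) ^ 4 ≤ 56 := by norm_num
  linarith

/-- **smooth fibres**: short dual vectors are rare, without and with the letter -/
theorem sm (h : Ty ty Φ) (hd : (lp Φ).det ≠ 0) (i : L) {t τ : ℝ} (ht : 1 ≤ t)
    (hτ : irr (Ir.nar ty (fun j => if j = i then t else 1) Φ) ≤ 1 + τ)
    {g : (Out ty i → ℤ) → ℝ} (g0 : ∀ r, 0 ≤ g r) (g1 : ∀ r, g r ≤ 1)
    (hg : ∀ r, g r ≠ 0 → ∃ k : In ty i → ℤ, k ≠ 0 ∧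
      ∀ u, (∀ v : In ty i, |Φ (jn (zc r) u) v| ≤ 1) → |zc k ⬝ᵥ u| ≤ t) :
    ∑' r, wt (del ty Φ i) r * g r ≤ 28 * τ * ZZ (del ty Φ i) ∧
      ∑' y, wt Φ y * g (y ∘ Subtype.val) ≤ 29 * τ * ZZ Φ := by
  have hd' := det_nar_ne (ty := ty) hd (lam := fun j => if j = i then t else 1) fun j => by
    split_ifs <;> positivity
  have t0 : 0 ≤ τ := by linarith [((h.nar _).one_le hd').trans hτ]
  have z := ((h.tdel i).ZZ_pos (h.det_del hd i)).le
  have a : ∑' r, wt (del ty Φ i) r * g r ≤ 28 * τ * ZZ (del ty Φ i) := by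
    have b := ((h.nar _).fb hd' i).bad 1 g0 g1 fun r m => by
      by_contra n
      obtain ⟨k, k0, hk⟩ := hg r n
      refine (m k k0).not_ge (short ((h.nar _).det_fm_ne hd' _) fun u hu => ?_)
      have := hk (t • u) fun v => by
        rw [h.inn, mulVec_smul, ← smul_mulVec, ← fm_nar]
        exact hu v
      rw [dotProduct_smul, smul_eq_mul, abs_mul, abs_of_pos (by positivity : 0 < t)] at this
      exact le_of_mul_le_mul_left (this.trans_eq (mul_one t).symm) (by positivity)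
    have c := (h.nar _).ex_le hd' i hτ
    rw [del_nar] at b c
    rw [mul_assoc]
    exact b.trans ((mul_le_mul_of_nonneg_left c (by positivity)).trans
      (mul_le_mul_of_nonneg_right exp_pi_le (by positivity)))
  refine ⟨a, ?_⟩
  have F := h.fb hd i
  have b := (abs_le.1 (F.marg 0 (f := g) fun r => abs_le.2 ⟨by linarith [g0 r], g1 r⟩)).2
  have c := h.ex_le hd i ((h.le_nar1 hd i ht).trans hτ)
  have e : ∀ (r : Out ty i → ℤ) (u : In ty i → ℤ), jn r u ∘ Subtype.val = r :=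
    fun r u => funext fun v => jn_out r u v
  have d := F.le
  rw [h.tsum_jn i fun a y => a * g (y ∘ Subtype.val), ZZ, h.tsum_jn i fun a _ => a, F.tsum_zero]
  simp only [Pi.zero_apply, sub_zero] at b
  simp only [e]
  have p : 0 ≤ |(fm Φ (0 : Out ty i → ℝ)).det|⁻¹ := by positivity
  change ZZ (del ty Φ i) ≤ _ at d
  nlinarith [mul_le_mul_of_nonneg_left a p, mul_le_mul_of_nonneg_left c p,
    mul_le_mul_of_nonneg_left d (mul_nonneg p t0)]

end Ty

end Crest.Agent.N49.Ir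

end
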