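import Crest.Agent.N49.Ir.Fix

/-!
# Row 49 (helper89): closed sets of words; positivity of the biases; `irr` bounds the biases
-/

set_option autoImplicit false
set_option linter.unusedSectionVars false

open Matrix

noncomputable section

namespace Crest.Agent.N49.Ir

open Po

variable {L V V' : Type} [DecidableEq L] [Fintype V] [DecidableEq V] [Fintype V'] [DecidableEq V']
  {ty : V → Finset L} {Φ : (V → ℝ) → V → ℝ}

/-- **positivity**: a phase which is linear in the block of a letter has a nonnegative bias -/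
theorem Ty.pos_lin (h : Ty ty Φ) (hd : (lp Φ).det ≠ 0) (i : L) {ψ : (V → ℝ) → ℝ}
    (hψ : ∀ r : Out ty i → ℝ, IsLinearMap ℝ fun u : In ty i → ℝ => ψ (jn r u)) :
    ∃ b : ℝ, 0 ≤ b ∧ ∑' y, (wt Φ y : ℂ) * ee (ψ (zc y)) = b := by
  have F := h.fb hd i
  have a := F.tsum_cpx 0 (F := fun p => ee (ψ (zc (jn p.1 p.2)))) (B := 1)
    fun _ => (norm_ee _).le
  simp only [Pi.zero_apply, sub_zero] at a
  have e : ∀ (r : Out ty i → ℤ) (u : In ty i → ℤ), ψ (zc (jn r u)) =
      (fun c => ψ (jn (zc r) (Pi.single c 1))) ⬝ᵥ zc u := fun r u => by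
    have b := (IsLinearMap.mk' _ (hψ (zc r))).pi_apply_eq_sum_univ (zc u)
    simp only [IsLinearMap.mk'_apply, smul_eq_mul] at b
    rw [zc_jn, b]
    refine Finset.sum_congr rfl fun c _ => ?_
    rw [mul_comm]
    congr 3
    funext c'
    simp [Pi.single_apply, eq_comm]
  refine ⟨∑' r, wt (del ty Φ i) r * (dt ((fm Φ (zc r))ᵀ * fm Φ (zc r)) *
    th ((fm Φ (zc r))ᵀ * fm Φ (zc r))⁻¹ fun c => ψ (jn (zc r) (Pi.single c 1))),
    tsum_nonneg fun r => mul_nonneg (F.nn r) (mul_nonneg (dt_pos (F.pd r)).le (th_nonneg _ _)), ?_⟩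
  rw [h.tsum_jn i fun a y => (a : ℂ) * ee (ψ (zc y)), a, Complex.ofReal_tsum]
  refine tsum_congr fun r => ?_
  rw [Complex.ofReal_mul, ← thc_zero_left (F.pd r), thc]
  simp only [e, sub_zero]

section blk

variable (P : V → Prop) [DecidablePred P]

variable (Φ) in
/-- the errors on `P` read only the words in `P` -/
def Lo : Prop := ∀ v, P v → ∀ y y', (∀ c, P c → y c = y' c) → Φ y v = Φ y' v

variable (Φ) in
/-- the restriction to the words in `P` -/
def rst (y : {v // P v} → ℝ) (v : {v // P v}) : ℝ := Φ (jq y 0) v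

variable (Φ) in
/-- the linear part on the words outside `P` -/
def tpA : Matrix {v // ¬P v} {v // ¬P v} ℝ := toSquareBlockProp (lp Φ) fun v => ¬P v

variable (Φ) in
/-- the centre of the words outside `P` -/
def tpC (y : {v // P v} → ℝ) : {v // ¬P v} → ℝ := -((tpA Φ P)⁻¹ *ᵥ fun v => Φ (jq y 0) v)

theorem lin_jq : IsLinearMap ℝ fun u : {v // P v} → ℝ => jq u (0 : {v // ¬P v} → ℝ) :=
  ⟨fun _ _ => funext fun c => by by_cases b : P c <;> simp [jq, b],
    fun _ _ => funext fun c => by by_cases b : P c <;> simp [jq, b]⟩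

theorem Ty.trst (h : Ty ty Φ) : Ty (fun v : {v // P v} => ty v) (rst Φ P) := by
  refine ⟨fun v => h.ne v, fun v y y' a => h.dep v _ _ fun c b => ?_, fun v j hj y => ?_⟩
  · by_cases k : P c
    · simpa [jq, k] using a ⟨c, k⟩ b
    · simp [jq, k]
  have a := h.lin v j hj (jq y 0)
  have e : ∀ u : {v // P v} → ℝ, jq (fun c : {v // P v} => if j ∈ ty c then u c else y c) 0 =
      fun c => if j ∈ ty c then jq u 0 c else jq y 0 c := fun u => funext fun c => by
    by_cases b : P c <;> simp [jq, b]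
  simp only [rst, e]
  exact ⟨fun u u' => by rw [(lin_jq P).map_add, a.map_add],
    fun t u => by rw [(lin_jq P).map_smul, a.map_smul]⟩

variable {P}

theorem Lo.eq (l : Lo Φ P) (y : V → ℝ) (v : {v // P v}) : Φ y v = rst Φ P (y ∘ Subtype.val) v :=
  l v v.2 _ _ fun c a => by simp [jq, a]

theorem Ty.det_lo (h : Ty ty Φ) (l : Lo Φ P) :
    (lp Φ).det = (lp (rst Φ P)).det * (tpA Φ P).det := by
  rw [lp_sub Subtype.val_injective l.eq]
  refine twoBlockTriangular_det' _ _ fun v a c b => ?_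
  obtain ⟨i, hi⟩ := h.ne v
  exact (l v a _ 0 fun c' k => Pi.single_eq_of_ne (fun e : c' = c => b (e ▸ k)) _).trans
    (h.zero hi fun _ _ => rfl)

variable {S : Finset L}

theorem Ty.top_eq (h : Ty ty Φ) (hS : ∀ v, ¬P v → ty v = S) (y : {v // P v} → ℝ)
    (u : {v // ¬P v} → ℝ) (v : {v // ¬P v}) :
    Φ (jq y u) v = (tpA Φ P *ᵥ u) v + Φ (jq y 0) v := by
  have e : (fun c => if ty c = ty v then 0 else jq y u c) =
      fun c => if ty c = ty v then 0 else jq y 0 c := funext fun c => by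
    by_cases b : P c <;> simp [jq, b, hS c, hS v v.2]
  rw [h.split v (jq y u), h.split v (jq y 0), e, ← add_assoc]
  congr 1
  simp only [mulVec, dotProduct, ← Fintype.sum_subtype_add_sum_subtype P]
  have a : ∀ c : {v // P v}, ∀ u, jq y u c = y c := fun c _ => dif_pos c.2
  have b : ∀ c : {v // ¬P v}, ∀ u, jq y u c = u c := fun c _ => dif_neg c.2
  simp [a, b, tpA, toSquareBlockProp_def, add_comm]

theorem Ty.wt_lo (h : Ty ty Φ) (hd : (lp Φ).det ≠ 0) (l : Lo Φ P) (hS : ∀ v, ¬P v → ty v = S)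
    (y : {v // P v} → ℤ) (u : {v // ¬P v} → ℤ) : wt Φ (jq y u) =
      wt (rst Φ P) y * gs ((tpA Φ P)ᵀ * tpA Φ P) (zc u - tpC Φ P (zc y)) := by
  have a : (tpA Φ P).det ≠ 0 := right_ne_zero_of_mul (h.det_lo l ▸ hd)
  rw [wt, wt, gs, gs, gs, qf_tr, ← Real.exp_add, ← neg_add, ← mul_add, qf_one, qf_one, qf_one,
    zc_jq, ← Fintype.sum_subtype_add_sum_subtype P, tpC, sub_neg_eq_add, mulVec_add,
    mulVec_mulVec, mul_nonsing_inv _ a.isUnit, one_mulVec]
  have e : jq (zc y) (zc u) ∘ Subtype.val = zc y := funext fun v => dif_pos v.2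
  have k : ∀ v : {v // P v}, Φ (jq (zc y) (zc u)) v = rst Φ P (zc y) v := fun v => by
    rw [l.eq, e]
  congr 3
  congr 1
  · exact Finset.sum_congr rfl fun v _ => by rw [k]
  · exact Finset.sum_congr rfl fun v _ => by rw [h.top_eq hS]; rfl

/-- **the dual expansion of `irr` over a top block: all the terms are nonnegative** -/
theorem Ty.blk (h : Ty ty Φ) (hd : (lp Φ).det ≠ 0) (l : Lo Φ P) (hS : ∀ v, ¬P v → ty v = S)
    {i : L} (hi : i ∈ S) : ∃ β : ({v // ¬P v} → ℤ) → ℝ, (∀ m, 0 ≤ β m) ∧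
      (∀ m, ∑' y, (wt (rst Φ P) y : ℂ) * ee (-(zc m ⬝ᵥ tpC Φ P (zc y))) = β m) ∧
      HasSum (fun m => gs ((tpA Φ P)ᵀ * tpA Φ P)⁻¹ (zc m) * β m * |(lp (rst Φ P)).det|)
        (irr Φ) := by
  have a : (tpA Φ P).det ≠ 0 := right_ne_zero_of_mul (h.det_lo l ▸ hd)
  have d : (lp (rst Φ P)).det ≠ 0 := left_ne_zero_of_mul (h.det_lo l ▸ hd)
  have r := h.trst P
  have s := r.summable d
  have n : ∀ y, 0 ≤ wt (rst Φ P) y := fun y => (wt_pos _ y).le
  choose β b0 b1 using fun m : {v // ¬P v} → ℤ =>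
    r.pos_lin d i (ψ := fun y => -(zc m ⬝ᵥ tpC Φ P y)) fun x => by
      have k : ∀ v : {v // ¬P v}, IsLinearMap ℝ fun u => Φ (jq (jn x u) 0) v := fun v => by
        have a := h.lin v i (hS v v.2 ▸ hi) (jq (jn x 0) 0)
        have e : ∀ u, jq (jn x u) 0 =
            fun c => if i ∈ ty c then jq (jn 0 u) 0 c else jq (jn x 0) 0 c :=
          fun u => funext fun c => by
            by_cases b : P c <;> by_cases b' : i ∈ ty c <;> simp [jq, jn, b, b']
        refine ⟨fun u u' => ?_, fun t u => ?_⟩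
        · rw [e, e u, e u', ← a.map_add, ← (lin_jq P).map_add]
          congr 1
          funext c
          by_cases b : P c <;> by_cases b' : i ∈ ty c <;> simp [jq, jn, b, b']
        · rw [e, e u, ← a.map_smul, ← (lin_jq P).map_smul]
          congr 1
          funext c
          by_cases b : P c <;> by_cases b' : i ∈ ty c <;> simp [jq, jn, b, b']
      simp only [tpC, dotProduct_neg, neg_neg]
      refine ⟨fun u u' => ?_, fun t u => ?_⟩
      · rw [← dotProduct_add, ← mulVec_add]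
        congr 2
        exact funext fun v => (k v).map_add u u'
      · rw [← dotProduct_smul, ← mulVec_smul]
        congr 2
        exact funext fun v => (k v).map_smul t u
  refine ⟨β, b0, b1, ?_⟩
  have p := pd_tr a
  have z : ZZ Φ = ∑' y, wt (rst Φ P) y * th ((tpA Φ P)ᵀ * tpA Φ P) (tpC Φ P (zc y)) := by
    rw [← tsum_ext_real p n s, ZZ, ← (jqE ℤ P).tsum_eq]
    exact tsum_congr fun q => h.wt_lo hd l hS q.1 q.2
  have q := pois_avg p n s (fun y => tpC Φ P (zc y)) 0 (f := fun _ => 1) (B := 1) (by simp)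
  simp only [one_mul, thc_zero_right, sub_zero, zero_sub, neg_dotProduct, b1] at q
  have le : ∀ m, β m ≤ ZZ (rst Φ P) := fun m => by
    have := norm_wt_le n s (f := fun y => ee (-(zc m ⬝ᵥ tpC Φ P (zc y)))) (B := 1)
      fun _ => (norm_ee _).le
    rw [b1, one_mul, Complex.norm_real] at this
    exact (le_abs_self _).trans this
  have sm : Summable fun m => gs ((tpA Φ P)ᵀ * tpA Φ P)⁻¹ (zc m) * β m :=
    (((summable_gs p.inv 0).mul_right (ZZ (rst Φ P))).of_nonneg_of_le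
      (fun m => mul_nonneg (gs_pos _ _).le (b0 m)) fun m => by
        rw [sub_zero]
        exact mul_le_mul_of_nonneg_left (le m) (gs_pos _ _).le)
  have e : ZZ Φ = |(tpA Φ P).det|⁻¹ * ∑' m, gs ((tpA Φ P)ᵀ * tpA Φ P)⁻¹ (zc m) * β m := by
    rw [z, ← dt_tr]
    exact_mod_cast q
  have := sm.hasSum.mul_right |(lp (rst Φ P)).det|
  rwa [irr, e, h.det_lo l, abs_mul, show ∀ x y z : ℝ, x⁻¹ * y * (z * x) = x⁻¹ * x * (y * z) from
    fun _ _ _ => by ring, inv_mul_cancel₀ (abs_pos.2 a).ne', one_mul]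

theorem Ty.blk' (h : Ty ty Φ) (hd : (lp Φ).det ≠ 0) (l : Lo Φ P) (hS : ∀ v, ¬P v → ty v = S)
    {i : L} (hi : i ∈ S) : irr (rst Φ P) ≤ irr Φ ∧ ∀ k : {v // ¬P v} → ℤ, k ≠ 0 →
      ‖∑' y, (wt (rst Φ P) y : ℂ) * ee (-(zc k ⬝ᵥ tpC Φ P (zc y)))‖ * |(lp (rst Φ P)).det| ≤
        (irr Φ - irr (rst Φ P)) * Real.exp (Real.pi * qf ((tpA Φ P)ᵀ * tpA Φ P)⁻¹ (zc k)) := by
  obtain ⟨β, b0, b1, s⟩ := h.blk hd l hS hi
  have z : β 0 = ZZ (rst Φ P) := by
    have := b1 0
    simp only [zc_zero, zero_dotProduct, neg_zero, ee_zero, mul_one] at this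
    rw [ZZ]
    exact_mod_cast this.symm
  have n := fun m => mul_nonneg (mul_nonneg (gs_pos ((tpA Φ P)ᵀ * tpA Φ P)⁻¹ (zc m)).le (b0 m))
    (abs_nonneg (lp (rst Φ P)).det)
  refine ⟨by simpa [zc_zero, gs_zero, z, irr] using le_hasSum s 0 fun m _ => n m, fun k k0 => ?_⟩
  have a := sum_le_hasSum {0, k} (fun m _ => n m) s
  rw [Finset.sum_pair k0.symm, zc_zero, gs_zero, one_mul, z, gs, Real.exp_neg] at a
  rw [b1, Complex.norm_real, Real.norm_of_nonneg (b0 k), ← div_le_iff₀ (Real.exp_pos _)]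
  change irr (rst Φ P) + _ ≤ _ at a
  rw [div_eq_inv_mul, ← mul_assoc]
  linarith

/-- **`irr` bounds the bias of every nonzero frequency of a top block** -/
theorem Ty.bias_le (h : Ty ty Φ) (hd : (lp Φ).det ≠ 0) (l : Lo Φ P) (hS : ∀ v, ¬P v → ty v = S)
    {k : {v // ¬P v} → ℤ} (k0 : k ≠ 0) :
    ‖∑' y, (wt (rst Φ P) y : ℂ) * ee (zc k ⬝ᵥ tpC Φ P (zc y))‖ ≤
      (irr Φ - 1) * Real.exp (Real.pi * qf ((tpA Φ P)ᵀ * tpA Φ P)⁻¹ (zc k)) * ZZ (rst Φ P) := by
  obtain ⟨v, -⟩ := Function.ne_iff.1 k0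
  obtain ⟨i, hi⟩ := h.ne v
  have d : (lp (rst Φ P)).det ≠ 0 := left_ne_zero_of_mul (h.det_lo l ▸ hd)
  have o := (h.trst P).one_le d
  have a := (h.blk' hd l hS (hS v v.2 ▸ hi)).2 (-k) (neg_ne_zero.2 k0)
  simp only [zc_neg, neg_dotProduct, neg_neg, qf_neg] at a
  refine le_of_mul_le_mul_right (a.trans ?_) (abs_pos.2 d)
  rw [mul_assoc _ (ZZ _)]
  exact (mul_le_mul_of_nonneg_right (by linarith) (Real.exp_pos _).le).trans
    (le_mul_of_one_le_right (mul_nonneg (sub_nonneg.2 (h.one_le hd)) (Real.exp_pos _).le) o)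

end blk

/-! ### arbitrary closed sub-systems -/

theorem sub_aux : ∀ (n : ℕ) {V' : Type} [Fintype V'] [DecidableEq V'] {ty' : V' → Finset L}
    {Φ' : (V' → ℝ) → V' → ℝ} {e : V → V'}, Fintype.card V' < n → Ty ty' Φ' → (lp Φ').det ≠ 0 →
    Function.Injective e → (∀ y v, Φ' y (e v) = Φ (y ∘ e) v) →
    (lp Φ).det ≠ 0 ∧ irr Φ ≤ irr Φ' := by
  intro n
  induction n with
  | zero => exact fun a => absurd a (Nat.not_lt_zero _)
  | succ n ih =>
    intro V' _ _ ty' Φ' e a h hd ei ph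
    classical
    by_cases s : Function.Surjective e
    · let e' := Equiv.ofBijective e ⟨ei, s⟩
      refine ⟨?_, (irr_iso e' ph).le⟩
      rwa [lp_sub (e := e') ei ph, det_submatrix_equiv_self]
    obtain ⟨v0, h0⟩ := not_forall.1 s
    obtain ⟨w, hw, mx⟩ := (Finset.univ.filter fun c => ¬∃ v, e v = c).exists_max_image
      (fun c => (ty' c).card) ⟨v0, by simpa using h0⟩
    have hw := (Finset.mem_filter.1 hw).2
    let P : V' → Prop := fun c => (∃ v, e v = c) ∨ ty' c ≠ ty' w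
    have l : Lo Φ' P := fun c hc y y' k => by
      by_cases m : ∃ v, e v = c
      · obtain ⟨v, rfl⟩ := m
        rw [ph, ph]
        exact congrFun (congrArg Φ (funext fun v => k _ (.inl ⟨v, rfl⟩))) v
      · refine h.dep c _ _ fun c' b => k c' (.inr fun t => ?_)
        exact (Finset.card_lt_card ((t ▸ b).ssubset_of_ne (hc.resolve_left m).symm)).not_ge
          (mx c (by simpa using m))
    obtain ⟨i, hi⟩ := h.ne w
    have b := ih (e := fun v => (⟨e v, .inl ⟨v, rfl⟩⟩ : {c // P c}))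
      ((Fintype.card_subtype_lt (x := w) fun t => t.elim hw fun t => t rfl).trans_le
        (Nat.le_of_lt_succ a)) (h.trst P) (left_ne_zero_of_mul (h.det_lo l ▸ hd))
      (fun _ _ k => ei (congrArg Subtype.val k)) fun y v => by
        rw [rst, ph]
        exact congrFun (congrArg Φ (funext fun c => dif_pos (.inl ⟨c, rfl⟩ : P (e c)))) v
    exact ⟨b.1, b.2.trans (h.blk' hd l (fun v t => not_not.1 fun m => t (.inr m)) hi).1⟩

variable {ty' : V' → Finset L} {Φ' : (V' → ℝ) → V' → ℝ} {e : V → V'}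

/-- **every closed sub-system is more regular** -/
theorem Ty.sub_le (h : Ty ty' Φ') (hd : (lp Φ').det ≠ 0) (ei : Function.Injective e)
    (ph : ∀ y v, Φ' y (e v) = Φ (y ∘ e) v) : (lp Φ).det ≠ 0 ∧ irr Φ ≤ irr Φ' :=
  sub_aux _ (Nat.lt_succ_self _) h hd ei ph

theorem Ty.sub (h : Ty ty' Φ') (ei : Function.Injective e)
    (ph : ∀ y v, Φ' y (e v) = Φ (y ∘ e) v) : Ty (fun v => ty' (e v)) Φ := by
  have x : ∀ y v, Φ y v = Φ' (Function.extend e y 0) (e v) := fun y v => by
    rw [ph, Function.extend_comp ei]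
  refine ⟨fun v => h.ne _, fun v y y' a => ?_, fun v i hi y => ?_⟩
  · rw [x, x]
    refine h.dep _ _ _ fun c b => ?_
    by_cases k : ∃ c', e c' = c
    · obtain ⟨c', rfl⟩ := k
      rw [ei.extend_apply, ei.extend_apply]
      exact a c' b
    · rw [Function.extend_apply' _ _ _ k, Function.extend_apply' _ _ _ k]
  have a := h.lin (e v) i hi (Function.extend e y 0)
  have k : ∀ u : V → ℝ, Φ (fun c => if i ∈ ty' (e c) then u c else y c) v =
      Φ' (fun c => if i ∈ ty' c then Function.extend e u 0 c else Function.extend e y 0 c)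
        (e v) := fun u => by
    rw [ph]
    congr 1
    funext c
    simp [ei.extend_apply]
  simp only [k]
  refine ⟨fun u u' => ?_, fun t u => ?_⟩
  · rw [← a.map_add, ph, ph]
    congr 1
    funext c
    simp [ei.extend_apply]
  · rw [← a.map_smul, ph, ph]
    congr 1
    funext c
    simp [ei.extend_apply]

end Crest.Agent.N49.Ir

end
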